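import Vale.Agent.GS.ConstLarge

set_option autoImplicit false

namespace Vale.Agent.Results.P047.ConstantFactorBound

open Vale.Agent.GS

/-- Unconditional improvement of the upper bound `M(d) ≤ d`: a real function on the cube bounded
by one, of degree at most `2 m + 2`, has level-one sum at most `2 m + 1`; a Boolean function of
degree at most `2 m + 2`, with `m ≥ 1`, has level-one sum at most `(2 m + 1) (1 - 1 / 3000)`; a
Boolean function of degree at most `d`, with `d ≥ 2`, has level-one sum at most `(1 - 1 / 3000) d`;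
and with `d ≥ 99` it has level-one sum at most `(1 - 2 / 75) d`. -/
theorem result :
    (∀ (n m : ℕ) (g : (Fin n → Bool) → ℝ), g ∈ P (Fin n) (2 * m + 2) → (∀ x, |g x| ≤ 1) →
      avg (fun x : Fin n → Bool => g x * ∑ i, sgn (x i)) ≤ 2 * (m : ℝ) + 1) ∧
    (∀ (n m : ℕ) (f : (Fin n → Bool) → Bool), 1 ≤ m → DegLE f (2 * m + 2) →
      levelOneSum f ≤ ((2 * m + 1 : ℕ) : ℝ) * (1 - 1 / 3000)) ∧
    (∀ (n d : ℕ) (f : (Fin n → Bool) → Bool), 2 ≤ d → DegLE f d →
      levelOneSum f ≤ (1 - 1 / 3000) * (d : ℝ)) ∧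
    (∀ (n d : ℕ) (f : (Fin n → Bool) → Bool), 99 ≤ d → DegLE f d →
      levelOneSum f ≤ (1 - 2 / 75) * (d : ℝ)) :=
  ⟨fun _ m _ hg hb => lvl_le_odd m hg hb,
   fun _ m _ hm hf => level_const m hm hf,
   fun _ _ _ hd hf => level_all hd hf,
   fun _ _ _ hd hf => level_all_large hd hf⟩

end Vale.Agent.Results.P047.ConstantFactorBound
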