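import Vale.Agent.GS.Balance

set_option autoImplicit false

namespace Vale.Agent.Results.P047.WeakImpliesStrong

open Vale.Agent.GS

/-- Amplification of the level-one sum under composition (unconditional), and the removal of the
constant from the weak square-root conjecture: if the level-one sum of every Boolean function of
degree at most `d` is at most `C * sqrt d`, then it is at most `sqrt d` for balanced functions, and
in general the level-one sum plus the absolute mean is at most the square root of the least odd
number that is at least `d`. -/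
theorem result :
    (∀ (n : ℕ) (f : (Fin n → Bool) → Bool) (d : ℕ), DegLE f d → Balanced f → ∀ t : ℕ,
      ∃ (m : ℕ) (F : (Fin m → Bool) → Bool), Balanced F ∧ DegLE F (d ^ (t + 1)) ∧
        levelOneSum F = levelOneSum f ^ (t + 1)) ∧
    ((∃ C : ℝ, ∀ (n : ℕ) (f : (Fin n → Bool) → Bool) (d : ℕ),
        DegLE f d → levelOneSum f ≤ C * Real.sqrt d) →
      (∀ (n : ℕ) (f : (Fin n → Bool) → Bool) (d : ℕ), DegLE f d → Balanced f →
        levelOneSum f ≤ Real.sqrt d) ∧
      (∀ (n : ℕ) (f : (Fin n → Bool) → Bool) (d : ℕ), DegLE f d →
        levelOneSum f + |avg (fun x : Fin n → Bool => sgn (f x))| ≤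
          Real.sqrt ((2 * (d / 2) + 1 : ℕ) : ℝ))) :=
  ⟨fun _ f _ hd hb t => iterate_exists f hd hb t,
   fun hweak => ⟨fun _ f _ hd hb => weak_implies_strong hweak f hb hd,
     fun _ f _ hd => weak_implies_general hweak f hd⟩⟩

end Vale.Agent.Results.P047.WeakImpliesStrong
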